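import Vale.Agent.P237.Full.Assembly
import Vale.Agent.P237.Full.Final

/-!
# P237: Petty's inequality in `ℝ⁴` with the equality case, from the profile lemma in that dimension
-/

open MeasureTheory Set Metric
open scoped RealInnerProductSpace Pointwise

namespace Vale.Agent.P237.Four

open Statement Full

lemma petty_zero : Full.petty 0 = 4 := by
  rw [Full.petty, pow_zero, div_one, show (0 : ℕ) + 1 = 1 from rfl, ballVol_one]
  norm_num

lemma petty_one : Full.petty 1 = 3 * Real.pi ^ 2 / 4 := pettyConst_three

lemma profileConst_one : profileConst 1 = 3 * Real.pi ^ 2 / 16 := by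
  have h := petty_succ_eq 0
  rw [petty_one, petty_zero] at h
  linarith

lemma profileDim_one : ProfileDim 1 := by
  intro f hf hev hlow hmom
  norm_num at hmom
  simpa only [profileConst_one, pow_one, show (1 : ℕ) + 1 = 2 from rfl] using
    profileThree f hf hev hlow hmom

lemma pettyBound_one : Full.PettyBound 1 := pettyBound_succ pettyBound_zero profileDim_one

lemma pettyConst_four : pettyConst 4 = 1024 / 81 := by
  have k3 : ballVol 3 = 4 / 3 * Real.pi := by rw [ballVol_rec 0, ballVol_one]; push_cast; ring
  have k4 : ballVol 4 = Real.pi ^ 2 / 2 := by rw [ballVol_rec 1, ballVol_two]; push_cast; ring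
  have := Real.pi_pos
  rw [pettyConst, show (4 : ℕ) - 1 = 3 from rfl, show (4 : ℕ) - 2 = 2 from rfl, k3, k4]
  field_simp
  ring

/-- The value of the profile functional at the semicircle in dimension four. -/
lemma profileConst_two : profileConst 2 = 4096 / (243 * Real.pi ^ 2) := by
  have h : Full.petty 2 = Full.petty 1 * profileConst 2 := petty_succ_eq 1
  rw [petty_one, show Full.petty 2 = 1024 / 81 from pettyConst_four] at h
  have hπ := Real.pi_pos
  field_simp at h ⊢
  linarith

/-- `|Π K| ≥ (1024/81) |K|³` in `ℝ⁴` with equality exactly for ellipsoids, from the profile lemma. -/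
theorem petty_four_of (hP : ProfileDim 2) {K : Set (Space 4)} (hK : IsConvexBody K) :
    pettyConst 4 * vol K ^ 3 ≤ vol (projectionBody K) ∧
      (vol (projectionBody K) = pettyConst 4 * vol K ^ 3 ↔
        ∃ (a : Space 4) (T : Space 4 →ₗ[ℝ] Space 4), Function.Injective T ∧
          K = (fun x => a + T x) '' closedBall 0 1) := by
  obtain ⟨hc, hk, hi⟩ := hK
  obtain ⟨h, heq⟩ := petty_step pettyBound_one hP (K := K) ⟨hc, hk⟩ hi
  have hV : 0 < (volume K).toReal := ENNReal.toReal_pos
    ((isOpen_interior.measure_pos volume hi).trans_le (measure_mono interior_subset)).ne'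
    hk.measure_lt_top.ne
  rw [projectionBody_eq, vol, vol, show pettyConst 4 = Full.petty (1 + 1) from rfl]
  rw [ratio, show (1 + 3 - 1 : ℕ) = 3 from rfl] at h heq
  rw [le_div_iff₀ (pow_pos hV 3)] at h
  rw [div_eq_iff (pow_pos hV 3).ne'] at heq
  refine ⟨h, heq.trans (exists_congr fun a => exists_congr fun T => and_congr_right fun _ => ?_)⟩
  rw [← image_vadd, image_image]
  rfl

end Vale.Agent.P237.Four
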